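import Mathlib
import Vale.Agent.Lib.P110.H16.Parity

namespace Vale.Agent.Results.P110.H16_FlatnessRate

open Finset Polynomial Vale.Agent.Lib.P110.H16

/-- Every real Littlewood polynomial `P(z) = ∑_{k<N} ε_k z^k` (`ε_k = ±1`) of length `N ≥ 2`
has a point `z` of the unit circle at which `| |P(z)|^2 - N | ≥ √(N-1)`,
`| |P(z)| - √N | ≥ 1/4` and hence `| |P(z)|/√N - 1 | ≥ 1/(4√N)`. -/
theorem result (N : ℕ) (hN : 2 ≤ N) (ε : ℕ → ℤ) (hε : ∀ k < N, ε k = 1 ∨ ε k = -1) :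
    ∃ z : ℂ, ‖z‖ = 1 ∧
      Real.sqrt ((N : ℝ) - 1) ≤ |‖∑ k ∈ Finset.range N, (ε k : ℂ) * z ^ k‖ ^ 2 - (N : ℝ)| ∧
      1 / 4 ≤ |‖∑ k ∈ Finset.range N, (ε k : ℂ) * z ^ k‖ - Real.sqrt (N : ℝ)| ∧
      1 / (4 * Real.sqrt (N : ℝ)) ≤
        |‖∑ k ∈ Finset.range N, (ε k : ℂ) * z ^ k‖ / Real.sqrt (N : ℝ) - 1| := by
  have hN1 : 1 ≤ N := by omega
  set G : ℂ[X] := (litG N ε).map (Int.castRingHom ℂ) with hG
  have hdeg : G.natDegree < 2 * N :=
    lt_of_le_of_lt Polynomial.natDegree_map_le (natDegree_litG N hN1 ε)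
  obtain ⟨z, hz, hle⟩ := exists_root_large G (2 * N) hdeg
  refine ⟨z, hz, ?_⟩
  set r : ℝ := ‖∑ k ∈ Finset.range N, (ε k : ℂ) * z ^ k‖ with hr
  have hr0 : 0 ≤ r := norm_nonneg _
  have hcoef : ((N : ℝ) - 1) ≤ ∑ s ∈ range (2 * N), Complex.normSq (G.coeff s) := by
    have h1 := sum_sq_coeff N hN1 ε hε
    have h2 : ∀ s ∈ range (2 * N),
        Complex.normSq (G.coeff s) = (((litG N ε).coeff s ^ 2 : ℤ) : ℝ) := by
      intro s _
      rw [hG, Polynomial.coeff_map]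
      have h3 : (Int.castRingHom ℂ) ((litG N ε).coeff s) = (((litG N ε).coeff s : ℝ) : ℂ) := by
        simp
      rw [h3, Complex.normSq_ofReal]
      push_cast
      ring
    rw [Finset.sum_congr rfl h2, ← Int.cast_sum]
    exact_mod_cast h1
  have hev : Complex.normSq (G.eval z) = (r ^ 2 - (N : ℝ)) ^ 2 := by
    rw [hG, eval_litG N hN1 ε z hz, Complex.normSq_mul, Complex.normSq_eq_norm_sq (z ^ (N - 1)),
      norm_pow, hz, one_pow, one_pow, one_mul,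
      Complex.normSq_eq_norm_sq (∑ k ∈ Finset.range N, (ε k : ℂ) * z ^ k), ← hr]
    have h4 : (((r ^ 2 : ℝ) : ℂ) - (N : ℂ)) = (((r ^ 2 - (N : ℝ) : ℝ)) : ℂ) := by
      push_cast
      ring
    rw [h4, Complex.normSq_ofReal]
    ring
  have hkey : (N : ℝ) - 1 ≤ (r ^ 2 - (N : ℝ)) ^ 2 := hcoef.trans (hle.trans_eq hev)
  have hNr : (2 : ℝ) ≤ (N : ℝ) := by exact_mod_cast hN
  set n : ℝ := Real.sqrt (N : ℝ) with hn
  have hn2 : n ^ 2 = (N : ℝ) := Real.sq_sqrt (by positivity)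
  have hnpos : 0 < n := Real.sqrt_pos.mpr (by positivity)
  have hn1 : 1 ≤ n := by nlinarith
  have hquarter : 1 / 4 ≤ |r - n| := by
    by_contra hcon
    rw [not_le, abs_lt] at hcon
    obtain ⟨hd1, hd2⟩ := hcon
    have hdsq : (r - n) ^ 2 ≤ 1 / 16 := by nlinarith
    have hsum0 : 0 ≤ r + n := by linarith
    have hsum : (r + n) ^ 2 ≤ (2 * n + 1 / 4) ^ 2 :=
      pow_le_pow_left₀ hsum0 (by linarith) 2
    have hprod : (r ^ 2 - (N : ℝ)) ^ 2 ≤ 1 / 16 * (2 * n + 1 / 4) ^ 2 := by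
      have e2 : (r ^ 2 - (N : ℝ)) ^ 2 = (r - n) ^ 2 * (r + n) ^ 2 := by
        rw [← hn2]
        ring
      rw [e2]
      exact mul_le_mul hdsq hsum (sq_nonneg _) (by norm_num)
    have hnn : n ≤ n ^ 2 := by nlinarith
    nlinarith
  refine ⟨?_, hquarter, ?_⟩
  · calc Real.sqrt ((N : ℝ) - 1) ≤ Real.sqrt ((r ^ 2 - (N : ℝ)) ^ 2) := Real.sqrt_le_sqrt hkey
      _ = |r ^ 2 - (N : ℝ)| := Real.sqrt_sq_eq_abs _
  · have e1 : r / n - 1 = (r - n) / n := by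
      field_simp
    rw [e1, abs_div, abs_of_pos hnpos, le_div_iff₀ hnpos]
    have e3 : 1 / (4 * n) * n = 1 / 4 := by
      field_simp
    rw [e3]
    exact hquarter

end Vale.Agent.Results.P110.H16_FlatnessRate
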