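import Mathlib
import Vale.Agent.Lib.P110.H26.Max

/-!
# P110: the maximum modulus of a real Littlewood polynomial is strictly above `√N`

For every real Littlewood polynomial `P(z) = ∑_{k<N} ε_k z^k` (`ε_k = ±1`) of length `N ≥ 2`
there is a point `z` of the unit circle with `|P(z)|^4 ≥ N^2 + N - 1`, hence
`|P(z)|^2 ≥ N + 1/5` and `|P(z)| / √N ≥ 1 + 1/(11 N)`.
-/

namespace Vale.Agent.Results.P110.H26_MaxAboveSqrtN

/-- Every real Littlewood polynomial `P(z) = ∑_{k<N} ε_k z^k` (`ε_k = ±1`) of length `N ≥ 2`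
has a point `z` of the unit circle at which `|P(z)|^4 ≥ N^2 + N - 1`, `|P(z)|^2 ≥ N + 1/5`
and `|P(z)| / √N ≥ 1 + 1/(11 N)`. -/
theorem result (N : ℕ) (hN : 2 ≤ N) (ε : ℕ → ℤ) (hε : ∀ k < N, ε k = 1 ∨ ε k = -1) :
    ∃ z : ℂ, ‖z‖ = 1 ∧
      (N : ℝ) ^ 2 + (N : ℝ) - 1 ≤ ‖∑ k ∈ Finset.range N, (ε k : ℂ) * z ^ k‖ ^ 4 ∧
      (N : ℝ) + 1 / 5 ≤ ‖∑ k ∈ Finset.range N, (ε k : ℂ) * z ^ k‖ ^ 2 ∧
      1 + 1 / (11 * (N : ℝ)) ≤
        ‖∑ k ∈ Finset.range N, (ε k : ℂ) * z ^ k‖ / Real.sqrt (N : ℝ) := by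
  obtain ⟨z, hz, h4⟩ := Vale.Agent.Lib.P110.H26.exists_large N hN ε hε
  refine ⟨z, hz, ?_⟩
  set r : ℝ := ‖∑ k ∈ Finset.range N, (ε k : ℂ) * z ^ k‖ with hr
  have hr0 : 0 ≤ r := norm_nonneg _
  have hNr : (2 : ℝ) ≤ (N : ℝ) := by exact_mod_cast hN
  have h2 : (N : ℝ) + 1 / 5 ≤ r ^ 2 := by
    by_contra hcon
    rw [not_le] at hcon
    have h5 : (r ^ 2) ^ 2 < ((N : ℝ) + 1 / 5) ^ 2 :=
      pow_lt_pow_left₀ hcon (by positivity) two_ne_zero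
    have e1 : (r ^ 2) ^ 2 = r ^ 4 := by ring
    have e2 : ((N : ℝ) + 1 / 5) ^ 2 = (N : ℝ) ^ 2 + 2 / 5 * (N : ℝ) + 1 / 25 := by ring
    rw [e1, e2] at h5
    linarith
  refine ⟨by linarith, h2, ?_⟩
  set n : ℝ := Real.sqrt (N : ℝ) with hn
  have hn2 : n ^ 2 = (N : ℝ) := Real.sq_sqrt (by positivity)
  have hnpos : 0 < n := Real.sqrt_pos.mpr (by positivity)
  rw [le_div_iff₀ hnpos]
  set a : ℝ := 1 / (11 * (N : ℝ)) with ha
  have ha0 : 0 ≤ a := by positivity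
  have haN : a * (N : ℝ) = 1 / 11 := by
    rw [ha]
    field_simp
  have ha2 : a ≤ 1 / 22 := by
    rw [ha]
    apply one_div_le_one_div_of_le (by norm_num)
    linarith
  have hsq : ((1 + a) * n) ^ 2 ≤ r ^ 2 := by
    have e : ((1 + a) * n) ^ 2 = (N : ℝ) + 2 * (a * (N : ℝ)) + a * (a * (N : ℝ)) := by
      rw [mul_pow, hn2]
      ring
    rw [e, haN]
    linarith
  exact (pow_le_pow_iff_left₀ (by positivity) hr0 two_ne_zero).mp hsq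

end Vale.Agent.Results.P110.H26_MaxAboveSqrtN
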